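import Mathlib
import Vale.Agent.P101.Defs

/-!
Interfaces for actions of finite and locally finite groups (P095).
-/

noncomputable section

open Filter Topology
open scoped BoundedContinuousFunction

namespace Vale.Agent.P095.Finite

open Vale.Agent.P101

universe u v

/-- The fixed point algebra. -/
def fixedAlg {G : Type v} {D : Type u} [CStarAlgebra D] (β : G → D ≃⋆ₐ[ℂ] D) :
    StarSubalgebra ℂ D where
  carrier := {x | ∀ g, β g x = x}
  mul_mem' {x y} hx hy g := by rw [map_mul, hx, hy]
  one_mem' g := map_one (β g)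
  add_mem' {x y} hx hy g := by rw [map_add, hx, hy]
  zero_mem' g := map_zero (β g)
  algebraMap_mem' z g := by
    rw [Algebra.algebraMap_eq_smul_one, map_smul, map_one]
  star_mem' {x} hx g := by rw [map_star, hx]

/-- Core lemma: with infinitely many commuting equivariant copies of an algebra whose commutators
generate it, the fixed point algebra of a finite group has no characters. -/
def CoreStatement : Prop :=
  ∀ (G : Type v) [Group G] [Fintype G] (D B : Type u) [CStarAlgebra D] [CStarAlgebra B]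
    (β : G → D ≃⋆ₐ[ℂ] D), (∀ g h x, β (g * h) x = β g (β h x)) →
    ∀ (γ : G → B → B) (c : Copies B D ℕ), (∀ k g a, c.hom k (γ g a) = β g (c.hom k a)) →
      Full {x : B | ∃ a b, a * b - b * a = x} → IsEmpty (fixedAlg β →⋆ₐ[ℂ] ℂ)

/-- The relations of the dimension drop algebra on representatives, invariant under the
elements of H modulo null sequences. -/
def InvComparison {G : Type v} {A : Type u} [CStarAlgebra A] (ω : Ultrafilter ℕ)
    (α : G → A ≃⋆ₐ[ℂ] A) (H : Set G) : Prop :=
  ∃ c e f v r s : ℕ →ᵇ A,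
    IsCentral ω c ∧ IsCentral ω e ∧ IsCentral ω f ∧ IsCentral ω v ∧ IsCentral ω r ∧
    IsCentral ω s ∧
    IsNull ω (star r * r - e) ∧ IsNull ω (star s * s - f) ∧ IsNull ω (c * c) ∧
    IsNull ω (c * star c - e * e) ∧ IsNull ω (star c * c - f * f) ∧
    IsNull ω (star v * v - (1 - e - f)) ∧ IsNull ω (e * v - v) ∧
    ∀ x ∈ [c, e, f, v, r, s], ∀ h ∈ H,
      Tendsto (fun n => ‖α h (x n) - x n‖) (ω : Filter ℕ) (𝓝 0)

/-- Finite groups. -/
def FiniteStatement : Prop :=
  ∀ (G : Type v) [Group G] [Fintype G] (A : Type u) [CStarAlgebra A]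
    [TopologicalSpace.SeparableSpace A] (α : G → A ≃⋆ₐ[ℂ] A),
    (∀ g h x, α (g * h) x = α g (α h x)) →
    ∀ (ω : Ultrafilter ℕ), (ω : Filter ℕ) ≤ cofinite → IsEmpty (CentralChar ω A) →
      InvComparison ω α Set.univ

/-- Diagonalisation over finite subsets. -/
def DiagStatement : Prop :=
  ∀ (G : Type v) [Countable G] (A : Type u) [CStarAlgebra A] [TopologicalSpace.SeparableSpace A]
    (α : G → A ≃⋆ₐ[ℂ] A) (ω : Ultrafilter ℕ), (ω : Filter ℕ) ≤ cofinite →
    (∀ S : Finset G, InvComparison ω α (S : Set G)) → InvComparison ω α Set.univ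

/-- The bridge to homomorphisms from the dimension drop algebra, invariant modulo null sequences. -/
def LocallyFiniteStatement : Prop :=
  ∀ (G : Type v) [Group G] [Countable G], (∀ S : Finset G, (Subgroup.closure (S : Set G) : Set G).Finite) →
    ∀ (A : Type u) [CStarAlgebra A] [TopologicalSpace.SeparableSpace A] (α : G → A ≃⋆ₐ[ℂ] A),
      (∀ g h x, α (g * h) x = α g (α h x)) →
      ∀ (ω : Ultrafilter ℕ), (ω : Filter ℕ) ≤ cofinite → IsEmpty (CentralChar ω A) →
        InvComparison ω α Set.univ

/-- Assembly: locally finite groups. -/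
theorem locallyFinite_of (h1 : FiniteStatement.{u, v}) (h2 : DiagStatement.{u, v}) :
    LocallyFiniteStatement.{u, v} := by
  intro G _ _ hG A _ _ α hα ω hω he
  refine h2 G A α ω hω fun S => ?_
  have : Finite (Subgroup.closure (S : Set G)) := (hG S).to_subtype
  have : Fintype (Subgroup.closure (S : Set G)) := Fintype.ofFinite _
  obtain ⟨c, e, f, v, r, s, h⟩ := h1 (Subgroup.closure (S : Set G)) A (fun g => α g)
    (fun g g' x => hα g g' x) ω hω he
  obtain ⟨p1, p2, p3, p4, p5, p6, p7, p8, p9, p10, p11, p12, p13, hinv⟩ := h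
  exact ⟨c, e, f, v, r, s, p1, p2, p3, p4, p5, p6, p7, p8, p9, p10, p11, p12, p13,
    fun x hx g hg => hinv x hx ⟨g, Subgroup.subset_closure hg⟩ trivial⟩

end Vale.Agent.P095.Finite
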