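import Vale.Agent.P101.Central
import Vale.Agent.P095.Finite.Defs

/-!
An automorphism of a C*-algebra acts on its central sequence algebra.
-/

noncomputable section

open Filter Topology
open scoped BoundedContinuousFunction

namespace Vale.Agent.P095.Finite

open Vale.Agent.P101

universe u v

variable {A : Type u} [CStarAlgebra A] (ω : Ultrafilter ℕ)

/-- Automorphisms preserve the norm. -/
lemma norm_equiv (φ : A ≃⋆ₐ[ℂ] A) (x : A) : ‖φ x‖ = ‖x‖ := by
  refine le_antisymm (NonUnitalStarAlgHom.norm_apply_le φ x) ?_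
  conv_lhs => rw [← φ.symm_apply_apply x]
  exact NonUnitalStarAlgHom.norm_apply_le φ.symm (φ x)

/-- An automorphism applied termwise. -/
def seqAct (φ : A ≃⋆ₐ[ℂ] A) : (ℕ →ᵇ A) →⋆ₐ[ℂ] (ℕ →ᵇ A) where
  toFun a := BoundedContinuousFunction.ofNormedAddCommGroupDiscrete (fun n => φ (a n)) ‖a‖
    fun n => (norm_equiv φ (a n)).le.trans (a.norm_coe_le_norm n)
  map_one' := by ext n; simp
  map_mul' a b := by ext n; simp
  map_zero' := by ext n; simp
  map_add' a b := by ext n; simp
  commutes' z := by ext n; simp [Algebra.algebraMap_eq_smul_one]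
  map_star' a := by ext n; simp [map_star]

@[simp] lemma seqAct_apply (φ : A ≃⋆ₐ[ℂ] A) (a : ℕ →ᵇ A) (n : ℕ) : seqAct φ a n = φ (a n) := rfl

lemma isNull_seqAct (φ : A ≃⋆ₐ[ℂ] A) {a : ℕ →ᵇ A} (h : IsNull ω a) : IsNull ω (seqAct φ a) :=
  h.congr fun n => (norm_equiv φ (a n)).symm

lemma isCentral_seqAct (φ : A ≃⋆ₐ[ℂ] A) {a : ℕ →ᵇ A} (h : IsCentral ω a) :
    IsCentral ω (seqAct φ a) := fun b => by
  refine (h (φ.symm b)).congr fun n => ?_
  rw [← norm_equiv φ (a n * φ.symm b - φ.symm b * a n)]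
  simp [map_sub, map_mul]

/-- An automorphism on central sequences. -/
def centralAct (φ : A ≃⋆ₐ[ℂ] A) : ↥(centralAlg ω A) →⋆ₐ[ℂ] ↥(centralAlg ω A) :=
  StarAlgHom.codRestrict ((seqAct φ).comp (centralAlg ω A).subtype) (centralAlg ω A)
    fun a => isCentral_seqAct ω φ a.2

lemma coe_centralAct (φ : A ≃⋆ₐ[ℂ] A) (a : ↥(centralAlg ω A)) (n : ℕ) :
    ((centralAct ω φ a : ↥(centralAlg ω A)) : ℕ →ᵇ A) n = φ ((a : ℕ →ᵇ A) n) := rfl

/-- An automorphism on the central sequence algebra, as a function. -/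
def actFun (φ : A ≃⋆ₐ[ℂ] A) (x : CQ ω A) : CQ ω A :=
  proj ω (centralAct ω φ (Function.surjInv (proj_surjective ω) x))

lemma actFun_proj (φ : A ≃⋆ₐ[ℂ] A) (a : ↥(centralAlg ω A)) :
    actFun ω φ (proj ω a) = proj ω (centralAct ω φ a) := by
  rw [actFun, proj_eq_iff]
  have h := (proj_eq_iff ω _ _).1 (Function.surjInv_eq (proj_surjective ω) (proj ω a))
  refine (isNull_seqAct ω φ h).congr fun n => ?_
  simp [coe_centralAct]

/-- An automorphism on the central sequence algebra. -/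
def actHom (φ : A ≃⋆ₐ[ℂ] A) : CQ ω A →⋆ₐ[ℂ] CQ ω A where
  toFun := actFun ω φ
  map_one' := by
    rw [← map_one (proj ω (A := A)), actFun_proj, map_one]
  map_mul' x y := by
    obtain ⟨a, rfl⟩ := proj_surjective ω x
    obtain ⟨b, rfl⟩ := proj_surjective ω y
    rw [← map_mul, actFun_proj, actFun_proj, actFun_proj, map_mul, map_mul]
  map_zero' := by
    rw [← map_zero (proj ω (A := A)), actFun_proj, map_zero]
  map_add' x y := by
    obtain ⟨a, rfl⟩ := proj_surjective ω x
    obtain ⟨b, rfl⟩ := proj_surjective ω y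
    rw [← map_add, actFun_proj, actFun_proj, actFun_proj, map_add, map_add]
  commutes' z := by
    rw [← AlgHomClass.commutes (proj ω (A := A)) z, actFun_proj, AlgHomClass.commutes]
  map_star' x := by
    obtain ⟨a, rfl⟩ := proj_surjective ω x
    rw [← map_star, actFun_proj, actFun_proj, map_star, map_star]

lemma actHom_proj (φ : A ≃⋆ₐ[ℂ] A) (a : ↥(centralAlg ω A)) :
    actHom ω φ (proj ω a) = proj ω (centralAct ω φ a) := actFun_proj ω φ a

variable {G : Type v} [Group G] (α : G → A ≃⋆ₐ[ℂ] A)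

lemma act_one (hα : ∀ g h x, α (g * h) x = α g (α h x)) (x : A) : α 1 x = x :=
  EquivLike.injective (α 1) (by rw [← hα, mul_one])

lemma actHom_mul (hα : ∀ g h x, α (g * h) x = α g (α h x)) (g h : G) (x : CQ ω A) :
    actHom ω (α (g * h)) x = actHom ω (α g) (actHom ω (α h) x) := by
  obtain ⟨a, rfl⟩ := proj_surjective ω x
  rw [actHom_proj, actHom_proj, actHom_proj]
  congr 1
  refine Subtype.ext ?_
  ext n
  exact hα g h _

lemma actHom_one (hα : ∀ g h x, α (g * h) x = α g (α h x)) (x : CQ ω A) :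
    actHom ω (α 1) x = x := by
  obtain ⟨a, rfl⟩ := proj_surjective ω x
  rw [actHom_proj]
  congr 1
  refine Subtype.ext ?_
  ext n
  exact act_one α hα _

/-- The action on the central sequence algebra. -/
def actCQ (hα : ∀ g h x, α (g * h) x = α g (α h x)) (g : G) : CQ ω A ≃⋆ₐ[ℂ] CQ ω A :=
  StarAlgEquiv.ofStarAlgHom (actHom ω (α g)) (actHom ω (α g⁻¹))
    (StarAlgHom.ext fun x => by
      show actHom ω (α g⁻¹) (actHom ω (α g) x) = x
      rw [← actHom_mul ω α hα, inv_mul_cancel, actHom_one ω α hα])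
    (StarAlgHom.ext fun x => by
      show actHom ω (α g) (actHom ω (α g⁻¹) x) = x
      rw [← actHom_mul ω α hα, mul_inv_cancel, actHom_one ω α hα])

lemma actCQ_apply (hα : ∀ g h x, α (g * h) x = α g (α h x)) (g : G) (x : CQ ω A) :
    actCQ ω α hα g x = actHom ω (α g) x := rfl

lemma actCQ_mul (hα : ∀ g h x, α (g * h) x = α g (α h x)) (g h : G) (x : CQ ω A) :
    actCQ ω α hα (g * h) x = actCQ ω α hα g (actCQ ω α hα h x) := actHom_mul ω α hα g h x

omit [Group G] in
/-- The fixed point algebra is closed. -/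
lemma isClosed_fixed {D : Type u} [CStarAlgebra D] (β : G → D ≃⋆ₐ[ℂ] D) :
    IsClosed (fixedAlg β : Set D) := by
  have e : (fixedAlg β : Set D) = ⋂ g, {x | β g x = x} := by
    ext x; simp [fixedAlg]
  rw [e]
  refine isClosed_iInter fun g => isClosed_eq ?_ continuous_id
  exact AddMonoidHomClass.continuous_of_bound (β g) 1 fun x => by rw [one_mul, norm_equiv]

end Vale.Agent.P095.Finite
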