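import Vale.Agent.P095.Finite.Copies
import Vale.Agent.P101.Char
import Vale.Agent.P101.Stage1
import Vale.Agent.P101.Regroup
import Vale.Agent.P101.Stage2
import Vale.Agent.P101.Stage3
import Vale.Agent.P101.Stage4
import Vale.Agent.P101.Colour

/-!
Finite groups: from the core lemma to the invariant dimension drop relations.
-/

noncomputable section

open Filter Topology
open scoped BoundedContinuousFunction

namespace Vale.Agent.P095.Finite

open Vale.Agent.P101

universe u v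

/-- Infinitely many commuting copies of an algebra without characters give the relations. -/
lemma comparison_copies {B F : Type u} [CStarAlgebra B] [CStarAlgebra F] (c : Copies B F ℕ)
    (hB : Full {x : B | ∃ a b, a * b - b * a = x}) : Comparison F := by
  obtain ⟨S, hS⟩ := exists_finite_witness hB
  have : IsClosed ((⊤ : StarSubalgebra ℂ B) : Set B) := by simp
  obtain ⟨L, b, hb, hfull⟩ := hS ⊤ (by simp)
  have hW : HasWitness B := by
    refine ⟨L, fun l => (b l : B), fun l => (hb l).map (⊤ : StarSubalgebra ℂ B).subtype, ?_⟩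
    refine full_mono (full_map (⊤ : StarSubalgebra ℂ B).subtype hfull) ?_
    rintro _ ⟨x, ⟨l, d, rfl⟩, rfl⟩
    exact TwoSidedIdeal.subset_span ⟨l, d, rfl⟩
  obtain ⟨n1, k1⟩ := stage1_ok B hW
  obtain ⟨B1, _, ⟨d1⟩, ⟨c1⟩⟩ := regroup_ok B F n1 c
  obtain ⟨n2, k2⟩ := stage2_ok B1 (k1 B1 d1)
  obtain ⟨B2, _, ⟨d2⟩, ⟨c2⟩⟩ := regroup_ok B1 F n2 c1
  obtain ⟨n3, k3⟩ := stage3_ok B2 (k2 B2 d2)
  obtain ⟨B3, _, ⟨d3⟩, ⟨c3⟩⟩ := regroup_ok B2 F n3 c2
  obtain ⟨n4, k4⟩ := stage4_of_colour colour_ok B3 (k3 B3 d3)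
  exact k4 F ⟨fun i => c3.hom i.1, fun i j h => c3.comm _ _ fun e => h (Fin.ext e)⟩

/-- Finite groups, from the core lemma. -/
theorem finite_ok_core (hcore : CoreStatement.{u, v}) : FiniteStatement.{u, v} := by
  intro G _ _ A _ _ α hα ω hω he
  let β : G → CQ ω A ≃⋆ₐ[ℂ] CQ ω A := actCQ ω α hα
  have : IsClosed (fixedAlg β : Set (CQ ω A)) := isClosed_fixed β
  -- the central sequence algebra has full commutators
  have hfull : Full {x : CQ ω A | ∃ a b, a * b - b * a = x} := by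
    by_contra h
    exact (isEmpty_char he).false (exists_char_of_not_full h).some
  obtain ⟨n, p, x, q, hx, hsum⟩ := full_exists_sum hfull
  choose a b hab using hx
  obtain ⟨B, _, γ, c, hc, hB, -⟩ := exists_copies_equiv α hα hω p a b q (by simpa only [hab] using hsum)
  -- hence so does the fixed point algebra
  have hchar : IsEmpty (fixedAlg β →⋆ₐ[ℂ] ℂ) :=
    hcore G (CQ ω A) B β (actCQ_mul ω α hα) γ c hc hB
  have hfull' : Full {x : fixedAlg β | ∃ a b, a * b - b * a = x} := by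
    by_contra h
    exact hchar.false (exists_char_of_not_full h).some
  obtain ⟨n', p', x', q', hx', hsum'⟩ := full_exists_sum hfull'
  choose a' b' hab' using hx'
  have hsum'' : ∑ i, (p' i : CQ ω A) * ((a' i : CQ ω A) * b' i - b' i * a' i) * q' i = 1 := by
    have e := congrArg (fixedAlg β).subtype hsum'
    simpa [← hab'] using e
  obtain ⟨B', _, γ', c', -, hB', hfix⟩ := exists_copies_equiv α hα hω _ _ _ _ hsum''
  have hmem : ∀ k y, c'.hom k y ∈ fixedAlg β := fun k y g =>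
    hfix (fun i g => ⟨(p' i).2 g, (a' i).2 g, (b' i).2 g, (q' i).2 g⟩) k y g
  let cF : Copies B' (fixedAlg β) ℕ :=
    ⟨fun k => StarAlgHom.codRestrict (c'.hom k) (fixedAlg β) (hmem k),
      fun j k hjk y z => Subtype.ext (c'.comm j k hjk y z)⟩
  obtain ⟨c0, e0, f0, v0, r0, s0, h1, h2, h3, h4, h5, h6, h7⟩ := comparison_copies cF hB'
  -- representatives
  obtain ⟨c1, hc1⟩ := proj_surjective ω (c0 : CQ ω A)
  obtain ⟨e1, he1⟩ := proj_surjective ω (e0 : CQ ω A)
  obtain ⟨f1, hf1⟩ := proj_surjective ω (f0 : CQ ω A)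
  obtain ⟨v1, hv1⟩ := proj_surjective ω (v0 : CQ ω A)
  obtain ⟨r1, hr1⟩ := proj_surjective ω (r0 : CQ ω A)
  obtain ⟨s1, hs1⟩ := proj_surjective ω (s0 : CQ ω A)
  replace h1 := congrArg (fixedAlg β).subtype h1
  replace h2 := congrArg (fixedAlg β).subtype h2
  replace h3 := congrArg (fixedAlg β).subtype h3
  replace h4 := congrArg (fixedAlg β).subtype h4
  replace h5 := congrArg (fixedAlg β).subtype h5
  replace h6 := congrArg (fixedAlg β).subtype h6
  replace h7 := congrArg (fixedAlg β).subtype h7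
  simp only [map_mul, map_star, map_sub, map_one, map_zero, StarSubalgebra.subtype_apply,
    ← hc1, ← he1, ← hf1, ← hv1, ← hr1, ← hs1] at h1 h2 h3 h4 h5 h6 h7
  simp only [← map_star, ← map_mul, ← map_sub, ← map_one (proj ω (A := A)),
    ← map_zero (proj ω (A := A)), proj_eq_iff] at h1 h2 h3 h4 h5 h6 h7
  refine ⟨c1, e1, f1, v1, r1, s1, c1.2, e1.2, f1.2, v1.2, r1.2, s1.2, h1, h2, by simpa using h3,
    h4, h5, h6, h7, ?_⟩
  have hinv : ∀ (w : fixedAlg β) (w1 : ↥(centralAlg ω A)), proj ω w1 = (w : CQ ω A) → ∀ g,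
      Tendsto (fun m => ‖α g ((w1 : ℕ →ᵇ A) m) - (w1 : ℕ →ᵇ A) m‖) (ω : Filter ℕ) (𝓝 0) := by
    intro w w1 hw g
    have e : proj ω (centralAct ω (α g) w1) = proj ω w1 := by
      rw [← actHom_proj, hw]
      exact w.2 g
    exact ((proj_eq_iff ω _ _).1 e).congr fun m => by simp [coe_centralAct]
  intro y hy g _
  simp only [List.mem_cons, List.not_mem_nil, or_false] at hy
  rcases hy with rfl | rfl | rfl | rfl | rfl | rfl
  exacts [hinv _ _ hc1 g, hinv _ _ he1 g, hinv _ _ hf1 g, hinv _ _ hv1 g, hinv _ _ hr1 g,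
    hinv _ _ hs1 g]

end Vale.Agent.P095.Finite
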