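import Vale.Agent.P101.Central
import Vale.Agent.P095.Finite.Defs

/-!
Diagonalisation: invariant relations for every finite set of group elements give relations
invariant under the whole countable group.
-/

noncomputable section

open Filter Topology
open scoped BoundedContinuousFunction

namespace Vale.Agent.P095.Finite

open Vale.Agent.P101

universe u v

/-- In a C*-algebra the relations force contractions. -/
lemma norm_le_of_relations {D : Type u} [CStarAlgebra D] {c e f v r s : D}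
    (h1 : star r * r = e) (h2 : star s * s = f) (h5 : star c * c = f * f)
    (h6 : star v * v = 1 - e - f) :
    ‖c‖ ≤ 1 ∧ ‖e‖ ≤ 1 ∧ ‖f‖ ≤ 1 ∧ ‖v‖ ≤ 1 ∧ ‖r‖ ≤ 1 ∧ ‖s‖ ≤ 1 := by
  let := CStarAlgebra.spectralOrder D
  have := CStarAlgebra.spectralOrderedRing D
  have he : 0 ≤ e := h1 ▸ star_mul_self_nonneg r
  have hf : 0 ≤ f := h2 ▸ star_mul_self_nonneg s
  have hv : 0 ≤ 1 - e - f := h6 ▸ star_mul_self_nonneg v
  have key : ∀ y : D, 0 ≤ y → y ≤ 1 → ‖y‖ ≤ 1 := fun y hy hy1 =>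
    (CStarAlgebra.norm_le_one_iff_of_nonneg y hy).2 hy1
  have hen : ‖e‖ ≤ 1 := key e he (by
    rw [← sub_nonneg]; simpa using add_nonneg hv hf)
  have hfn : ‖f‖ ≤ 1 := key f hf (by
    rw [← sub_nonneg, show 1 - f = (1 - e - f) + e by abel]; exact add_nonneg hv he)
  have sq : ∀ (y w : D), star y * y = w → ‖w‖ ≤ 1 → ‖y‖ ≤ 1 := fun y w hy hw => by
    rw [← hy, CStarRing.norm_star_mul_self] at hw
    nlinarith [norm_nonneg y]
  have hvn : ‖1 - e - f‖ ≤ 1 := key _ hv (by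
    rw [← sub_nonneg, show 1 - (1 - e - f) = e + f by abel]; exact add_nonneg he hf)
  exact ⟨sq c _ h5 ((norm_mul_le f f).trans (mul_le_one₀ hfn (norm_nonneg _) hfn)), hen, hfn,
    sq v _ h6 hvn, sq r _ h1 hen, sq s _ h2 hfn⟩

variable {A : Type u} [CStarAlgebra A]

/-- Central sequences with the relations are eventually bounded by two. -/
lemma eventually_bound (ω : Ultrafilter ℕ) {c e f v r s : ℕ →ᵇ A} (hc : IsCentral ω c)
    (he : IsCentral ω e) (hf : IsCentral ω f) (hv : IsCentral ω v) (hr : IsCentral ω r)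
    (hs : IsCentral ω s) (h1 : IsNull ω (star r * r - e)) (h2 : IsNull ω (star s * s - f))
    (h5 : IsNull ω (star c * c - f * f)) (h6 : IsNull ω (star v * v - (1 - e - f))) :
    ∀ᶠ n in (ω : Filter ℕ), ∀ x ∈ [c, e, f, v, r, s], ‖x n‖ ≤ 2 := by
  let P : ∀ x : ℕ →ᵇ A, IsCentral ω x → CQ ω A := fun x hx => proj ω ⟨x, hx⟩
  obtain ⟨b1, b2, b3, b4, b5, b6⟩ := norm_le_of_relations (D := CQ ω A)
    (c := P c hc) (e := P e he) (f := P f hf) (v := P v hv) (r := P r hr) (s := P s hs)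
    (by simp only [P, ← map_star, ← map_mul, proj_eq_iff]; exact h1)
    (by simp only [P, ← map_star, ← map_mul, proj_eq_iff]; exact h2)
    (by simp only [P, ← map_star, ← map_mul, proj_eq_iff]; exact h5)
    (by simp only [P, ← map_star, ← map_mul, ← map_sub, ← map_one (proj ω (A := A)), proj_eq_iff]
        exact h6)
  have ev : ∀ x : ℕ →ᵇ A, nrm ω x ≤ 1 → ∀ᶠ n in (ω : Filter ℕ), ‖x n‖ ≤ 2 := fun x hx =>
    ((tendsto_nrm (ω := ω) x).eventually_lt_const (hx.trans_lt one_lt_two)).mono fun n hn => hn.le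
  filter_upwards [ev c b1, ev e b2, ev f b3, ev v b4, ev r b5, ev s b6]
    with n g1 g2 g3 g4 g5 g6
  simp [g1, g2, g3, g4, g5, g6]

/-- The six sequences at an index, seven relations. -/
def relErr (x : Fin 6 → A) : Fin 7 → A :=
  ![star (x 4) * x 4 - x 1, star (x 5) * x 5 - x 2, x 0 * x 0,
    x 0 * star (x 0) - x 1 * x 1, star (x 0) * x 0 - x 2 * x 2,
    star (x 3) * x 3 - (1 - x 1 - x 2), x 1 * x 3 - x 3]

/-- A diagonal index function. -/
lemma exists_diag {ω : Ultrafilter ℕ} (hω : (ω : Filter ℕ) ≤ cofinite) (P : ℕ → ℕ → Prop)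
    (hP : ∀ j, ∀ᶠ n in (ω : Filter ℕ), P j n) :
    ∃ φ : ℕ → ℕ, ∀ J, ∀ᶠ n in (ω : Filter ℕ), J ≤ φ n ∧ P (φ n) n := by
  classical
  refine ⟨fun n => Nat.findGreatest (fun j => P j n) n, fun J => ?_⟩
  filter_upwards [hP J, (tendsto_atTop_omega hω) (eventually_ge_atTop J)] with n hn hJn
  exact ⟨Nat.le_findGreatest hJn hn, Nat.findGreatest_spec (P := fun j => P j n) hJn hn⟩

/-- Diagonalisation. -/
theorem diag_ok : DiagStatement.{u, v} := by
  intro G _ A _ _ α ω hω hS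
  classical
  obtain ⟨enc, henc⟩ := Countable.exists_injective_nat G
  let S : ℕ → Finset G := fun j => (Finset.range j).preimage enc henc.injOn
  obtain ⟨d, hd⟩ := TopologicalSpace.exists_dense_seq A
  choose c e f v r s hc he hf hv hr hs h1 h2 h3 h4 h5 h6 h7 hinv using fun j => hS (S j)
  let w : ℕ → Fin 6 → ℕ →ᵇ A := fun j => ![c j, e j, f j, v j, r j, s j]
  have hwc : ∀ j i, IsCentral ω (w j i) := fun j i => by fin_cases i <;> simp [w, *]
  have hwmem : ∀ j i, w j i ∈ [c j, e j, f j, v j, r j, s j] := fun j i => by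
    fin_cases i <;> simp [w]
  have hwrel : ∀ j k, Tendsto (fun n => ‖relErr (fun i => w j i n) k‖) (ω : Filter ℕ) (𝓝 0) := by
    intro j k
    fin_cases k
    exacts [h1 j, h2 j, h3 j, h4 j, h5 j, h6 j, h7 j]
  let δ : ℕ → ℝ := fun j => 1 / (j + 1)
  have hδ : ∀ j, 0 < δ j := fun j => Nat.one_div_pos_of_nat
  let P : ℕ → ℕ → Prop := fun j n =>
    (∀ i, ‖w j i n‖ ≤ 2) ∧ (∀ k, ‖relErr (fun i => w j i n) k‖ ≤ δ j) ∧
    (∀ i, ∀ m ∈ Finset.range j, ‖w j i n * d m - d m * w j i n‖ ≤ δ j) ∧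
    ∀ i, ∀ g ∈ S j, ‖α g (w j i n) - w j i n‖ ≤ δ j
  have hP : ∀ j, ∀ᶠ n in (ω : Filter ℕ), P j n := fun j => by
    refine (Filter.eventually_all.2 fun i => ?_).and ((Filter.eventually_all.2 fun k => ?_).and
      ((Filter.eventually_all.2 fun i => ?_).and (Filter.eventually_all.2 fun i => ?_)))
    · exact (eventually_bound ω (hc j) (he j) (hf j) (hv j) (hr j) (hs j) (h1 j) (h2 j) (h5 j)
        (h6 j)).mono fun n hn => hn _ (hwmem j i)
    · exact (hwrel j k).eventually_le_const (hδ j)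
    · exact (Finset.eventually_all _).2 fun m _ => (hwc j i (d m)).eventually_le_const (hδ j)
    · exact (Finset.eventually_all _).2 fun g hg =>
        (hinv j _ (hwmem j i) g hg).eventually_le_const (hδ j)
  obtain ⟨φ, hφ⟩ := exists_diag hω P hP
  let W : Fin 6 → ℕ →ᵇ A := fun i => BoundedContinuousFunction.ofNormedAddCommGroupDiscrete
    (fun n => if ‖w (φ n) i n‖ ≤ 2 then w (φ n) i n else 0) 2 fun n => by
      split_ifs with h
      · exact h
      · simp
  have hWeq : ∀ J, ∀ᶠ n in (ω : Filter ℕ),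
      J ≤ φ n ∧ P (φ n) n ∧ ∀ i, W i n = w (φ n) i n := fun J =>
    (hφ J).mono fun n hn => ⟨hn.1, hn.2, fun i => if_pos (hn.2.1 i)⟩
  -- eventual bounds tending to zero give null functions
  have null : ∀ (F : ℕ → ℝ) (J₀ : ℕ), (∀ n, 0 ≤ F n) →
      (∀ n, J₀ ≤ φ n → P (φ n) n → (∀ i, W i n = w (φ n) i n) → F n ≤ δ (φ n)) →
      Tendsto F (ω : Filter ℕ) (𝓝 0) := by
    intro F J₀ h0 hF
    refine Metric.tendsto_nhds.2 fun ε hε => ?_
    obtain ⟨J, hJ⟩ := exists_nat_one_div_lt hε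
    filter_upwards [hWeq (max J₀ J)] with n ⟨hn, hn', hn''⟩
    rw [Real.dist_eq, sub_zero, abs_of_nonneg (h0 n)]
    refine (hF n (le_of_max_le_left hn) hn' hn'').trans_lt (lt_of_le_of_lt ?_ hJ)
    exact one_div_le_one_div_of_le (by positivity)
      (by exact_mod_cast Nat.add_le_add_right (le_of_max_le_right hn) 1)
  have hWc : ∀ i, IsCentral ω (W i) := by
    intro i b
    have hd' : ∀ m, Tendsto (fun n => ‖W i n * d m - d m * W i n‖) (ω : Filter ℕ) (𝓝 0) :=
      fun m => null _ (m + 1) (fun n => norm_nonneg _) fun n hn hn' hW => by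
        rw [hW i]; exact hn'.2.2.1 i m (Finset.mem_range.2 (by omega))
    refine Metric.tendsto_nhds.2 fun ε hε => ?_
    obtain ⟨m, hm⟩ := hd.exists_dist_lt b (show 0 < ε / 10 by positivity)
    filter_upwards [Metric.tendsto_nhds.1 (hd' m) (ε / 2) (by positivity)] with n hn
    rw [Real.dist_eq, sub_zero, abs_of_nonneg (norm_nonneg _)] at hn ⊢
    rw [dist_eq_norm] at hm
    have hb : ‖W i n‖ ≤ 2 := by
      show ‖if ‖w (φ n) i n‖ ≤ 2 then w (φ n) i n else 0‖ ≤ 2
      split_ifs with h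
      · exact h
      · simp
    calc ‖W i n * b - b * W i n‖
        = ‖(W i n * d m - d m * W i n) + W i n * (b - d m) - (b - d m) * W i n‖ := by
          congr 1; noncomm_ring
      _ ≤ ‖W i n * d m - d m * W i n‖ + ‖W i n * (b - d m)‖ + ‖(b - d m) * W i n‖ :=
          (norm_sub_le _ _).trans (add_le_add (norm_add_le _ _) le_rfl)
      _ < ε := by
          have e1 := (norm_mul_le (W i n) (b - d m)).trans
            (mul_le_mul hb hm.le (norm_nonneg _) two_pos.le)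
          have e2 := (norm_mul_le (b - d m) (W i n)).trans
            (mul_le_mul hm.le hb (norm_nonneg _) (by positivity))
          linarith
  have hWrel : ∀ k, Tendsto (fun n => ‖relErr (fun i => W i n) k‖) (ω : Filter ℕ) (𝓝 0) :=
    fun k => null _ 0 (fun n => norm_nonneg _) fun n _ hn hW => by
      simp only [hW]; exact hn.2.1 k
  refine ⟨W 0, W 1, W 2, W 3, W 4, W 5, hWc 0, hWc 1, hWc 2, hWc 3, hWc 4, hWc 5,
    hWrel 0, hWrel 1, hWrel 2, hWrel 3, hWrel 4, hWrel 5, hWrel 6, fun x hx g _ => ?_⟩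
  obtain ⟨i, rfl⟩ : ∃ i, x = W i := by
    simp only [List.mem_cons, List.not_mem_nil, or_false] at hx
    rcases hx with rfl | rfl | rfl | rfl | rfl | rfl
    exacts [⟨0, rfl⟩, ⟨1, rfl⟩, ⟨2, rfl⟩, ⟨3, rfl⟩, ⟨4, rfl⟩, ⟨5, rfl⟩]
  refine null _ (enc g + 1) (fun n => norm_nonneg _) fun n hn hn' hW => ?_
  rw [hW i]
  exact hn'.2.2.2 i g (by simp [S]; omega)

end Vale.Agent.P095.Finite
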