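import Mathlib
import Vale.Agent.P101.Defs
import Vale.Agent.P095.Finite.Defs

/-!
Core lemma for finite groups: the fixed point algebra has no characters.

A character gives a state; weak operator limits of the copies give commuting operators, the
multiplicativity kills power sums of the translated variances, and Newton's identities kill the
variance itself, so that commutators vanish on the state.
-/

noncomputable section

open Filter Topology
open scoped CStarAlgebra InnerProductSpace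

namespace Vale.Agent.P095.Finite

open Vale.Agent.P101

universe u v w

section Weak

variable {H : Type*} [NormedAddCommGroup H] [InnerProductSpace ℂ H] [CompleteSpace H]

/-- Convergence in the weak operator topology. -/
def WT {ι : Type*} (l : Filter ι) (T : ι → H →L[ℂ] H) (L : H →L[ℂ] H) : Prop :=
  ∀ v w, Tendsto (fun k => ⟪v, T k w⟫_ℂ) l (𝓝 ⟪v, L w⟫_ℂ)

/-- Bounded families have weak limits along ultrafilters. -/
lemma exists_wt {ι : Type*} (U : Ultrafilter ι) {T : ι → H →L[ℂ] H} {M : ℝ}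
    (hT : ∀ k, ‖T k‖ ≤ M) : ∃ L, WT (U : Filter ι) T L := by
  rcases isEmpty_or_nonempty ι with h | h
  · exact absurd (U.neBot) (by simp [Filter.filter_eq_bot_of_isEmpty (U : Filter ι)])
  have hM : 0 ≤ M := (norm_nonneg _).trans (hT h.some)
  have hb : ∀ v w k, ‖⟪T k v, w⟫_ℂ‖ ≤ M * ‖v‖ * ‖w‖ := fun v w k =>
    (norm_inner_le_norm _ _).trans (mul_le_mul_of_nonneg_right
      (((T k).le_opNorm v).trans (mul_le_mul_of_nonneg_right (hT k) (norm_nonneg _))) (norm_nonneg _))
  have hex : ∀ v w, ∃ z : ℂ, ‖z‖ ≤ M * ‖v‖ * ‖w‖ ∧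
      Tendsto (fun k => ⟪T k v, w⟫_ℂ) (U : Filter ι) (𝓝 z) := by
    intro v w
    obtain ⟨z, hz, ht⟩ := (isCompact_closedBall (0 : ℂ) (M * ‖v‖ * ‖w‖)).ultrafilter_le_nhds
      (U.map fun k => ⟪T k v, w⟫_ℂ) (by
        rw [le_principal_iff, Ultrafilter.coe_map, Filter.mem_map]
        exact Filter.univ_mem' fun k => mem_closedBall_zero_iff.2 (hb v w k))
    exact ⟨z, mem_closedBall_zero_iff.1 hz, ht⟩
  choose z hzb hz using hex
  let B : H →L⋆[ℂ] H →L[ℂ] ℂ := LinearMap.mkContinuous₂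
    (LinearMap.mk₂'ₛₗ (starRingEnd ℂ) (RingHom.id ℂ) z
      (fun v v' w => tendsto_nhds_unique (hz (v + v') w)
        (((hz v w).add (hz v' w)).congr fun k => by simp))
      (fun c v w => tendsto_nhds_unique (hz (c • v) w)
        (((hz v w).const_mul (starRingEnd ℂ c)).congr fun k => by simp [mul_comm]))
      (fun v w w' => tendsto_nhds_unique (hz v (w + w'))
        (((hz v w).add (hz v w')).congr fun k => by simp))
      (fun c v w => tendsto_nhds_unique (hz v (c • w))
        (((hz v w).const_mul c).congr fun k => by simp [mul_comm]))) M hzb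
  refine ⟨InnerProductSpace.continuousLinearMapOfBilin B, fun v w => ?_⟩
  have h1 : ⟪InnerProductSpace.continuousLinearMapOfBilin B w, v⟫_ℂ = z w v :=
    InnerProductSpace.continuousLinearMapOfBilin_apply B w v
  rw [← inner_conj_symm v, h1]
  exact ((hz w v).star).congr fun k => inner_conj_symm _ _

omit [CompleteSpace H] in
lemma WT.unique {ι : Type*} {l : Filter ι} [l.NeBot] {T : ι → H →L[ℂ] H} {L L' : H →L[ℂ] H}
    (h : WT l T L) (h' : WT l T L') : L = L' :=
  ContinuousLinearMap.ext fun w => ext_inner_left ℂ fun v => tendsto_nhds_unique (h v w) (h' v w)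

omit [CompleteSpace H] in
lemma WT.congr {ι : Type*} {l : Filter ι} {T T' : ι → H →L[ℂ] H} {L : H →L[ℂ] H}
    (h : WT l T L) (he : ∀ᶠ k in l, T k = T' k) : WT l T' L :=
  fun v w => (h v w).congr' (he.mono fun k hk => by simp only [hk])

omit [CompleteSpace H] in
lemma WT.const {ι : Type*} {l : Filter ι} (L : H →L[ℂ] H) : WT l (fun _ => L) L :=
  fun _ _ => tendsto_const_nhds

omit [CompleteSpace H] in
lemma WT.add {ι : Type*} {l : Filter ι} {T T' : ι → H →L[ℂ] H} {L L' : H →L[ℂ] H}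
    (h : WT l T L) (h' : WT l T' L') : WT l (fun k => T k + T' k) (L + L') := fun v w => by
  simpa [inner_add_right] using (h v w).add (h' v w)

lemma WT.sub {ι : Type*} {l : Filter ι} {T T' : ι → H →L[ℂ] H} {L L' : H →L[ℂ] H}
    (h : WT l T L) (h' : WT l T' L') : WT l (fun k => T k - T' k) (L - L') := fun v w => by
  simpa [inner_sub_right] using (h v w).sub (h' v w)

lemma WT.mul_left {ι : Type*} {l : Filter ι} {T : ι → H →L[ℂ] H} {L : H →L[ℂ] H}
    (h : WT l T L) (X : H →L[ℂ] H) : WT l (fun k => X * T k) (X * L) := fun v w => by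
  simpa only [ContinuousLinearMap.star_eq_adjoint, ContinuousLinearMap.adjoint_inner_left,
    ContinuousLinearMap.mul_apply] using h (star X v) w

lemma WT.mul_right {ι : Type*} {l : Filter ι} {T : ι → H →L[ℂ] H} {L : H →L[ℂ] H}
    (h : WT l T L) (X : H →L[ℂ] H) : WT l (fun k => T k * X) (L * X) := fun v w => by
  simpa using h v (X w)

lemma WT.star {ι : Type*} {l : Filter ι} {T : ι → H →L[ℂ] H} {L : H →L[ℂ] H}
    (h : WT l T L) : WT l (fun k => star (T k)) (star L) := fun v w => by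
  simp only [ContinuousLinearMap.star_eq_adjoint, ContinuousLinearMap.adjoint_inner_right]
  rw [← inner_conj_symm (L v) w]
  exact ((h w v).star).congr fun k => inner_conj_symm _ _

lemma WT.commute {ι : Type*} {l : Filter ι} [l.NeBot] {T : ι → H →L[ℂ] H} {L X : H →L[ℂ] H}
    (h : WT l T L) (he : ∀ᶠ k in l, Commute X (T k)) : Commute X L :=
  ((h.mul_left X).congr he).unique (h.mul_right X)

/-- A self-adjoint operator with a power killing a vector kills it. -/
lemma eq_zero_of_pow {C : H →L[ℂ] H} (hC : IsSelfAdjoint C) {ξ : H} :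
    ∀ N : ℕ, (C ^ N) ξ = 0 → C ξ = 0 := by
  intro N
  induction N with
  | zero => intro h; simp only [pow_zero, ContinuousLinearMap.one_apply] at h; rw [h, map_zero]
  | succ N ih =>
    intro h
    rcases N with _ | M
    · simpa using h
    · refine ih ?_
      have e : ⟪(C ^ (M + 1)) ξ, (C ^ (M + 1)) ξ⟫_ℂ = ⟪(C ^ M) ξ, (C ^ (M + 1 + 1)) ξ⟫_ℂ := by
        rw [pow_succ' C (M + 1), ContinuousLinearMap.mul_apply,
          ← ContinuousLinearMap.adjoint_inner_left C, ← ContinuousLinearMap.star_eq_adjoint,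
          hC.star_eq, pow_succ' C M, ContinuousLinearMap.mul_apply]
      rw [h, inner_zero_right] at e
      exact inner_self_eq_zero.1 e

end Weak

/-- If all power sums of finitely many elements vanish, the elements are nilpotent. -/
lemma pow_card_eq_zero {R : Type*} [CommRing R] [Algebra ℂ R] {σ : Type*} [Fintype σ]
    [DecidableEq σ] (f : σ → R) (h : ∀ m : ℕ, 0 < m → ∑ i, f i ^ m = 0) (i : σ) :
    f i ^ Fintype.card σ = 0 := by
  have hes : ∀ k : ℕ, 0 < k → MvPolynomial.aeval f (MvPolynomial.esymm σ ℤ k) = 0 := by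
    intro k hk
    have hn := congrArg (MvPolynomial.aeval f) (MvPolynomial.mul_esymm_eq_sum σ ℤ k)
    rw [map_mul, map_natCast, map_mul, map_sum] at hn
    have hz : ∀ a ∈ (Finset.HasAntidiagonal.antidiagonal k).filter (fun a => a.1 < k),
        MvPolynomial.aeval f ((-1) ^ a.1 * MvPolynomial.esymm σ ℤ a.1 * MvPolynomial.psum σ ℤ a.2)
          = 0 := by
      intro a ha
      obtain ⟨h1, h2⟩ := Finset.mem_filter.1 ha
      rw [Finset.HasAntidiagonal.mem_antidiagonal] at h1
      have hp : MvPolynomial.aeval f (MvPolynomial.psum σ ℤ a.2) = 0 := by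
        simp only [MvPolynomial.psum, map_sum, map_pow, MvPolynomial.aeval_X]
        exact h _ (by omega)
      rw [map_mul, hp, mul_zero]
    rw [Finset.sum_eq_zero hz, mul_zero] at hn
    have hk' : IsUnit (k : R) := by
      rw [← map_natCast (algebraMap ℂ R) k]
      exact (Ne.isUnit (Nat.cast_ne_zero.2 hk.ne')).map _
    exact hk'.mul_right_eq_zero.1 hn
  have hp := congrArg (Polynomial.eval (f i))
    (Multiset.prod_X_sub_X_eq_sum_esymm (Finset.univ.val.map f))
  rw [Polynomial.eval_multiset_prod, Multiset.map_map] at hp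
  rw [Multiset.prod_eq_zero (Multiset.mem_map.2 ⟨f i, Multiset.mem_map.2 ⟨i, Finset.mem_univ_val i, rfl⟩,
    by simp⟩)] at hp
  rw [Polynomial.eval_finsetSum, Finset.sum_eq_single 0] at hp
  · simpa [Multiset.esymm] using hp.symm
  · intro k _ hk
    have e : (Finset.univ.val.map f).esymm k = 0 := by
      rw [← MvPolynomial.aeval_esymm_eq_multiset_esymm σ ℤ k f]
      exact hes k (Nat.pos_of_ne_zero hk)
    simp [e]
  · simp

/-- If all power sums lie in an ideal, so do powers of the elements. -/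
lemma pow_card_mem {R : Type*} [CommRing R] [Algebra ℂ R] (J : Ideal R) {σ : Type*} [Fintype σ]
    [DecidableEq σ] (f : σ → R) (h : ∀ m : ℕ, 0 < m → ∑ i, f i ^ m ∈ J) (i : σ) :
    f i ^ Fintype.card σ ∈ J := by
  rw [← Ideal.Quotient.eq_zero_iff_mem, map_pow]
  refine pow_card_eq_zero (fun j => Ideal.Quotient.mk J (f j)) (fun m hm => ?_) i
  simp only [← map_pow, ← map_sum, Ideal.Quotient.eq_zero_iff_mem]
  exact h m hm

section Main

variable {G : Type v} [Group G] [Fintype G] {D B : Type u} [CStarAlgebra D] [CStarAlgebra B]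
  (β : G → D ≃⋆ₐ[ℂ] D)

/-- The group average. -/
def avg : D →ₗ[ℂ] D :=
  (Fintype.card G : ℂ)⁻¹ • ∑ g, (β g : D →⋆ₐ[ℂ] D).toLinearMap

lemma avg_apply (x : D) : avg β x = (Fintype.card G : ℂ)⁻¹ • ∑ g, β g x := by
  simp [avg]

lemma avg_mem (hβ : ∀ g h x, β (g * h) x = β g (β h x)) (x : D) : avg β x ∈ fixedAlg β := fun h => by
  rw [avg_apply, map_smul, map_sum]
  congr 1
  refine Fintype.sum_equiv (Equiv.mulLeft h) _ _ fun g => ?_
  rw [Equiv.coe_mulLeft, hβ]

lemma avg_of_mem {x : D} (hx : x ∈ fixedAlg β) : avg β x = x := by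
  rw [avg_apply, Finset.sum_congr rfl fun g _ => hx g, Finset.sum_const, Finset.card_univ,
    ← Nat.cast_smul_eq_nsmul ℂ, smul_smul, inv_mul_cancel₀ (Nat.cast_ne_zero.2 Fintype.card_ne_zero),
    one_smul]

/-- Filters of nested tuples of pairs. -/
def pairFilter (U : Ultrafilter ℕ) : ℕ → Filter (List (ℕ × ℕ))
  | 0 => pure []
  | m + 1 => (U : Filter ℕ).bind fun k => (U : Filter ℕ).bind fun k' =>
      (pairFilter U m).map (List.cons (k, k'))

lemma tendsto_bind {α γ X : Type*} [TopologicalSpace X] {l : Filter α} {F : α → Filter γ}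
    {f : γ → X} {g : α → X} {x : X} (h : ∀ a, Tendsto f (F a) (𝓝 (g a)))
    (hg : Tendsto g l (𝓝 x)) : Tendsto f (l.bind F) (𝓝 x) := by
  rw [tendsto_nhds]
  intro s hs hx
  refine Filter.mem_bind'.2 ?_
  filter_upwards [(tendsto_nhds.1 hg) s hs hx] with a ha
  exact (tendsto_nhds.1 (h a)) s hs ha

instance pairFilter_neBot (U : Ultrafilter ℕ) : ∀ m, (pairFilter U m).NeBot
  | 0 => by rw [pairFilter]; infer_instance
  | m + 1 => by
    have := pairFilter_neBot U m
    constructor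
    intro h
    rw [pairFilter, ← Filter.empty_mem_iff_bot, Filter.mem_bind'] at h
    obtain ⟨k, hk⟩ := (U : Filter ℕ).nonempty_of_mem h
    rw [Set.mem_setOf_eq, Filter.mem_bind'] at hk
    obtain ⟨k', hk'⟩ := (U : Filter ℕ).nonempty_of_mem hk
    rw [Set.mem_setOf_eq, Filter.mem_map, Set.preimage_empty, Filter.empty_mem_iff_bot] at hk'
    exact this.ne hk'

/-- The product of differences over a list of pairs. -/
def diffProd (c : Copies B D ℕ) (a : B) : List (ℕ × ℕ) → D
  | [] => 1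
  | p :: L => diffProd c a L * (c.hom p.1 a - c.hom p.2 a)

variable {H : Type w} [NormedAddCommGroup H] [InnerProductSpace ℂ H] [CompleteSpace H]
  (π : D →⋆ₐ[ℂ] (H →L[ℂ] H)) (c : Copies B D ℕ) (U : Ultrafilter ℕ)
  {Λ : B → H →L[ℂ] H}

/-- The limit of the products of differences over nested pairs. -/
lemma wt_diffProd (hΛ : ∀ b, WT (U : Filter ℕ) (fun k => π (c.hom k b)) (Λ b)) (a : B) :
    ∀ m, WT (pairFilter U (m + 1)) (fun L => π (diffProd c a L)) 0 := by
  intro m
  induction m with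
  | zero =>
    intro v w
    rw [pairFilter]
    refine tendsto_bind (g := fun k => ⟪v, (π (c.hom k a) - Λ a) w⟫_ℂ) (fun k => ?_)
      (((hΛ a).sub (WT.const (Λ a))) v w |>.trans (by rw [sub_self]))
    refine tendsto_bind (g := fun k' => ⟪v, (π (c.hom k a) - π (c.hom k' a)) w⟫_ℂ) (fun k' => ?_)
      (((WT.const (π (c.hom k a))).sub (hΛ a)) v w)
    rw [tendsto_map'_iff, pairFilter]
    refine tendsto_pure_left.2 fun s hs => ?_
    simpa [diffProd] using mem_of_mem_nhds hs
  | succ m ih =>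
    intro v w
    rw [pairFilter]
    refine tendsto_bind (g := fun _ => ⟪v, (0 : H →L[ℂ] H) w⟫_ℂ) (fun k => ?_)
      tendsto_const_nhds
    refine tendsto_bind (g := fun _ => ⟪v, (0 : H →L[ℂ] H) w⟫_ℂ) (fun k' => ?_)
      tendsto_const_nhds
    rw [tendsto_map'_iff]
    refine ((ih.mul_right (π (c.hom k a - c.hom k' a))) v w).congr' (Eventually.of_forall fun L => ?_)
      |>.trans (by simp)
    simp only [Function.comp, diffProd, map_mul]

/-- The limit of the translated variances. -/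
def Cov (x y : B) : H →L[ℂ] H := (2 : ℂ) • (Λ (star x * y) - star (Λ x) * Λ y)

lemma wt_starProd (hΛ : ∀ b, WT (U : Filter ℕ) (fun k => π (c.hom k b)) (Λ b))
    (hΛπ : ∀ b l x, Commute (π (c.hom l x)) (Λ b)) (hΛstar : ∀ b, Λ (star b) = star (Λ b))
    (x y : B) : ∀ m, WT (pairFilter U m)
      (fun L => π (star (diffProd c x L) * diffProd c y L)) (Cov (Λ := Λ) x y ^ m) := by
  let q : ℕ → ℕ → (H →L[ℂ] H) := fun k k' =>
    star (π (c.hom k x) - π (c.hom k' x)) * (π (c.hom k y) - π (c.hom k' y))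
  let C₁ : ℕ → (H →L[ℂ] H) := fun k =>
    π (c.hom k (star x * y)) - star (π (c.hom k x)) * Λ y
      - (star (Λ x) * π (c.hom k y) - Λ (star x * y))
  have hq₁ : ∀ k, WT (U : Filter ℕ) (q k) (C₁ k) := fun k => by
    refine (((WT.const _).sub ((hΛ y).mul_left _)).sub
      (((hΛ x).star.mul_right (π (c.hom k y))).sub (hΛ (star x * y)))).congr
      (Eventually.of_forall fun k' => ?_)
    simp only [q, map_mul, map_star, star_sub]
    noncomm_ring
  have hq₂ : WT (U : Filter ℕ) C₁ (Cov (Λ := Λ) x y) := by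
    have e : Cov (Λ := Λ) x y = Λ (star x * y) - star (Λ x) * Λ y
        - (star (Λ x) * Λ y - Λ (star x * y)) := by
      simp only [Cov]; module
    rw [e]
    exact ((hΛ _).sub ((hΛ x).star.mul_right _)).sub (((hΛ _).mul_left _).sub (WT.const _))
  have hCπ : ∀ l z, Commute (π (c.hom l z)) (Cov (Λ := Λ) x y) := fun l z =>
    ((hΛπ _ l z).sub_right ((hΛstar x ▸ hΛπ (star x) l z).mul_right (hΛπ _ l z))).smul_right 2
  intro m
  induction m with
  | zero =>
    intro v w
    rw [pairFilter, pow_zero]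
    refine tendsto_pure_left.2 fun s hs => ?_
    simpa [diffProd] using mem_of_mem_nhds hs
  | succ m ih =>
    intro v w
    rw [pairFilter]
    refine tendsto_bind (g := fun k => ⟪v, (Cov (Λ := Λ) x y ^ m * C₁ k) w⟫_ℂ) (fun k => ?_)
      ((hq₂.mul_left (Cov (Λ := Λ) x y ^ m)) v w |>.trans (by rw [← pow_succ]))
    refine tendsto_bind (g := fun k' => ⟪v, (Cov (Λ := Λ) x y ^ m * q k k') w⟫_ℂ) (fun k' => ?_)
      (((hq₁ k).mul_left (Cov (Λ := Λ) x y ^ m)) v w)
    rw [tendsto_map'_iff]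
    have hcomm : Commute (star (π (c.hom k x - c.hom k' x))) (Cov (Λ := Λ) x y ^ m) := by
      rw [← map_star, star_sub, ← map_star (c.hom k), ← map_star (c.hom k'), map_sub]
      exact ((hCπ k _).sub_left (hCπ k' _)).pow_right m
    have e : Cov (Λ := Λ) x y ^ m * q k k' = star (π (c.hom k x - c.hom k' x))
        * Cov (Λ := Λ) x y ^ m * π (c.hom k y - c.hom k' y) := by
      rw [hcomm.eq, mul_assoc]
      simp [q]
    rw [e]
    refine (((ih.mul_left (star (π (c.hom k x - c.hom k' x)))).mul_right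
      (π (c.hom k y - c.hom k' y))) v w).congr fun L => ?_
    simp only [Function.comp, diffProd, star_mul, map_mul, map_star, mul_assoc]

variable (γ : G → B → B) (ξ : H)

lemma diffProd_equivariant (hc : ∀ k g a, c.hom k (γ g a) = β g (c.hom k a)) (g : G) (a : B)
    (L : List (ℕ × ℕ)) : β g (diffProd c a L) = diffProd c (γ g a) L := by
  induction L with
  | nil => exact map_one (β g)
  | cons p L ih => rw [diffProd, diffProd, map_mul, map_sub, ih, hc, hc]

open scoped ComplexOrder in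
/-- The power sums of the covariances kill the vector. -/
lemma powerSum_eq_zero (hΛ : ∀ b, WT (U : Filter ℕ) (fun k => π (c.hom k b)) (Λ b))
    (hΛπ : ∀ b l x, Commute (π (c.hom l x)) (Λ b)) (hΛstar : ∀ b, Λ (star b) = star (Λ b))
    (hc : ∀ k g a, c.hom k (γ g a) = β g (c.hom k a))
    (hmult : ∀ x, ⟪ξ, π (star (avg β x) * avg β x) ξ⟫_ℂ
      = starRingEnd ℂ ⟪ξ, π x ξ⟫_ℂ * ⟪ξ, π x ξ⟫_ℂ) (a : B) :
    ∀ m, 0 < m → (∑ g, ∑ h, Cov (Λ := Λ) (γ g a) (γ h a) ^ m) ξ = 0 := by
  have hdiff := fun g L => diffProd_equivariant β c γ hc g a L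
  let S : ℕ → (H →L[ℂ] H) := fun m => ∑ g, ∑ h, Cov (Λ := Λ) (γ g a) (γ h a) ^ m
  set K : ℂ := (Fintype.card G : ℂ)⁻¹
  have hexp : ∀ L, π (star (avg β (diffProd c a L)) * avg β (diffProd c a L))
      = (starRingEnd ℂ K * K) • ∑ g, ∑ h,
        π (star (diffProd c (γ g a) L) * diffProd c (γ h a) L) := fun L => by
    rw [avg_apply, star_smul, ← starRingEnd_apply, smul_mul_smul_comm, map_smul, star_sum,
      Finset.sum_mul_sum, map_sum]
    simp only [map_sum, hdiff, K]
  intro m hm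
  obtain ⟨m, rfl⟩ := Nat.exists_eq_add_one_of_ne_zero hm.ne'
  have hw : ∀ v w, Tendsto
      (fun L => ⟪v, π (star (avg β (diffProd c a L)) * avg β (diffProd c a L)) w⟫_ℂ)
      (pairFilter U (m + 1)) (𝓝 ((starRingEnd ℂ K * K) * ⟪v, S (m + 1) w⟫_ℂ)) := by
    intro v w
    simp only [hexp, ContinuousLinearMap.smul_apply, ContinuousLinearMap.sum_apply,
      inner_smul_right, inner_sum, S]
    exact (tendsto_finsetSum _ fun g _ => tendsto_finsetSum _ fun h _ =>
      wt_starProd π c U hΛ hΛπ hΛstar (γ g a) (γ h a) (m + 1) v w).const_mul _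
  have hK : starRingEnd ℂ K * K = (((Fintype.card G : ℝ)⁻¹ * (Fintype.card G : ℝ)⁻¹ : ℝ) : ℂ) := by
    simp [K]
  have hposS : (S (m + 1)).IsPositive := by
    rw [ContinuousLinearMap.isPositive_iff_complex]
    intro w
    have ht := hw w w
    rw [hK] at ht
    have hlow : ∀ L, 0 ≤ ⟪w, π (star (avg β (diffProd c a L)) * avg β (diffProd c a L)) w⟫_ℂ :=
      fun L => by
        rw [map_mul, map_star, ContinuousLinearMap.mul_apply, ContinuousLinearMap.star_eq_adjoint,
          ContinuousLinearMap.adjoint_inner_right, inner_self_eq_norm_sq_to_K]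
        simp only [← RCLike.ofReal_pow]
        exact RCLike.ofReal_nonneg.2 (sq_nonneg _)
    have hn := ge_of_tendsto' ht hlow
    have hc' : (0 : ℝ) < (Fintype.card G : ℝ)⁻¹ * (Fintype.card G : ℝ)⁻¹ := by
      have : (0 : ℝ) < Fintype.card G := Nat.cast_pos.2 Fintype.card_pos
      positivity
    have hz : 0 ≤ ⟪w, S (m + 1) w⟫_ℂ := by
      rcases Complex.nonneg_iff.1 hn with ⟨h1, h2⟩
      simp only [Complex.mul_re, Complex.mul_im, Complex.ofReal_re, Complex.ofReal_im, zero_mul,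
        sub_zero, add_zero] at h1 h2
      exact Complex.nonneg_iff.2 ⟨nonneg_of_mul_nonneg_right h1 hc',
        ((mul_eq_zero.1 h2.symm).resolve_left hc'.ne').symm⟩
    rw [← inner_conj_symm (S (m + 1) w) w]
    generalize ⟪w, S (m + 1) w⟫_ℂ = z at hz ⊢
    rcases Complex.nonneg_iff.1 hz with ⟨h1, h2⟩
    constructor
    · apply Complex.ext <;> simp [← h2]
    · simpa using h1
  have hval : ⟪ξ, S (m + 1) ξ⟫_ℂ = 0 := by
    have ht := hw ξ ξ
    have h0 : Tendsto (fun L => ⟪ξ, π (diffProd c a L) ξ⟫_ℂ) (pairFilter U (m + 1)) (𝓝 0) := by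
      simpa using wt_diffProd π c U hΛ a m ξ ξ
    have ht' : Tendsto
        (fun L => ⟪ξ, π (star (avg β (diffProd c a L)) * avg β (diffProd c a L)) ξ⟫_ℂ)
        (pairFilter U (m + 1)) (𝓝 0) := by
      have := ((Complex.continuous_conj.tendsto 0).comp h0).mul h0
      rw [mul_zero] at this
      exact this.congr fun L => by rw [Function.comp_apply, hmult]
    have hK0 : starRingEnd ℂ K * K ≠ 0 := by
      simp [K]
    exact (mul_eq_zero.1 (tendsto_nhds_unique ht ht')).resolve_left hK0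
  obtain ⟨r, hr⟩ := (CStarAlgebra.nonneg_iff_eq_star_mul_self.1
    ((ContinuousLinearMap.nonneg_iff_isPositive _).2 hposS))
  rw [hr, ContinuousLinearMap.mul_apply, ContinuousLinearMap.star_eq_adjoint,
    ContinuousLinearMap.adjoint_inner_right, inner_self_eq_zero] at hval
  show S (m + 1) ξ = 0
  rw [hr, ContinuousLinearMap.mul_apply, hval, map_zero]

/-- The variance kills the vector. -/
lemma variance_eq_zero (hβ : ∀ g h x, β (g * h) x = β g (β h x))
    (hΛ : ∀ b, WT (U : Filter ℕ) (fun k => π (c.hom k b)) (Λ b))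
    (hΛπ : ∀ b l x, Commute (π (c.hom l x)) (Λ b)) (hΛΛ : ∀ a b, Commute (Λ a) (Λ b))
    (hΛstar : ∀ b, Λ (star b) = star (Λ b))
    (hc : ∀ k g a, c.hom k (γ g a) = β g (c.hom k a))
    (hmult : ∀ x, ⟪ξ, π (star (avg β x) * avg β x) ξ⟫_ℂ
      = starRingEnd ℂ ⟪ξ, π x ξ⟫_ℂ * ⟪ξ, π x ξ⟫_ℂ) (a : B) :
    (Λ (star a * a) - star (Λ a) * Λ a) ξ = 0 := by
  classical
  let C : G → G → (H →L[ℂ] H) := fun g h => Cov (Λ := Λ) (γ g a) (γ h a)
  have hCC : ∀ g h g' h', Commute (C g h) (C g' h') := fun g h g' h' => by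
    have h0 : ∀ b, Commute (Λ b) (C g' h') := fun b =>
      (((hΛΛ b _).sub_right ((hΛstar (γ g' a) ▸ hΛΛ b (star (γ g' a))).mul_right (hΛΛ b _)))).smul_right 2
    exact ((h0 _).sub_left ((hΛstar (γ g a) ▸ h0 (star (γ g a))).mul_left (h0 _))).smul_left 2
  let R := Algebra.adjoin ℂ (Set.range fun gh : G × G => Cov (Λ := Λ) (γ gh.1 a) (γ gh.2 a))
  letI : CommRing R := Algebra.adjoinCommRingOfComm ℂ (by
    rintro _ ⟨x, rfl⟩ _ ⟨y, rfl⟩
    exact (hCC x.1 x.2 y.1 y.2).eq)
  let J : Ideal R :=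
    { carrier := {x | (x : H →L[ℂ] H) ξ = 0}
      add_mem' := fun {x y} hx hy => by
        show ((x : H →L[ℂ] H) + (y : H →L[ℂ] H)) ξ = 0
        rw [ContinuousLinearMap.add_apply, hx, hy, add_zero]
      zero_mem' := by
        show (0 : H →L[ℂ] H) ξ = 0
        simp
      smul_mem' := fun x y hy => by
        show ((x : H →L[ℂ] H) * (y : H →L[ℂ] H)) ξ = 0
        rw [ContinuousLinearMap.mul_apply, hy, map_zero] }
  let f : G × G → R := fun gh => ⟨Cov (Λ := Λ) (γ gh.1 a) (γ gh.2 a), Algebra.subset_adjoin ⟨gh, rfl⟩⟩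
  have hnil : f (1, 1) ^ Fintype.card (G × G) ∈ J := by
    refine pow_card_mem J f (fun m hm => ?_) (1, 1)
    show ((∑ gh, f gh ^ m : R) : H →L[ℂ] H) ξ = 0
    rw [AddSubmonoidClass.coe_finsetSum, Fintype.sum_prod_type]
    exact powerSum_eq_zero β π c U γ ξ hΛ hΛπ hΛstar hc hmult a m hm
  have hone : ∀ k x, c.hom k (γ 1 x) = c.hom k x := fun k x => by
    rw [hc]
    have := hβ 1 1 (c.hom k x)
    rw [mul_one] at this
    exact (EquivLike.injective (β 1) this.symm)
  have hΛ1 : ∀ b b', (∀ k, c.hom k b = c.hom k b') → Λ b = Λ b' := fun b b' h =>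
    (hΛ b).unique ((hΛ b').congr (Eventually.of_forall fun k => by rw [h]))
  have hC : C 1 1 = (2 : ℂ) • (Λ (star a * a) - star (Λ a) * Λ a) := by
    simp only [C, Cov]
    rw [hΛ1 (γ 1 a) a fun k => hone k a,
      hΛ1 (star (γ 1 a) * γ 1 a) (star a * a) fun k => by simp [map_mul, map_star, hone]]
  have hsaC : IsSelfAdjoint (C 1 1) := by
    rw [hC, isSelfAdjoint_iff, star_smul, star_sub, star_mul, star_star, ← hΛstar, star_mul,
      star_star, ← starRingEnd_apply, map_ofNat]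
  have h0 : C 1 1 ξ = 0 := eq_zero_of_pow hsaC _ hnil
  rw [hC, ContinuousLinearMap.smul_apply] at h0
  exact (smul_eq_zero.1 h0).resolve_left two_ne_zero

/-- Nearby copies agree on the vector. -/
lemma close_copies (hne : ∀ l : ℕ, ∀ᶠ k in (U : Filter ℕ), k ≠ l)
    (hΛ : ∀ b, WT (U : Filter ℕ) (fun k => π (c.hom k b)) (Λ b))
    (hvar : ∀ a, (Λ (star a * a) - star (Λ a) * Λ a) ξ = 0) :
    ∀ (a : B) (ε : ℝ), 0 < ε → ∀ᶠ k in (U : Filter ℕ), ∀ᶠ k' in (U : Filter ℕ),
      k' ≠ k ∧ ‖π (c.hom k a) ξ - π (c.hom k' a) ξ‖ < ε := by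
  intro a ε hε
  let Q : ℕ → ℕ → (H →L[ℂ] H) := fun k k' =>
    star (π (c.hom k a) - π (c.hom k' a)) * (π (c.hom k a) - π (c.hom k' a))
  let Q₁ : ℕ → (H →L[ℂ] H) := fun k =>
    π (c.hom k (star a * a)) - star (π (c.hom k a)) * Λ a
      - (star (Λ a) * π (c.hom k a) - Λ (star a * a))
  have hQ₁ : ∀ k, WT (U : Filter ℕ) (Q k) (Q₁ k) := fun k => by
    refine (((WT.const _).sub ((hΛ a).mul_left _)).sub
      (((hΛ a).star.mul_right (π (c.hom k a))).sub (hΛ (star a * a)))).congr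
      (Eventually.of_forall fun k' => ?_)
    simp only [Q, map_mul, map_star, star_sub]
    noncomm_ring
  have hQ₂ : WT (U : Filter ℕ) Q₁ (Λ (star a * a) - star (Λ a) * Λ a
      - (star (Λ a) * Λ a - Λ (star a * a))) :=
    ((hΛ _).sub ((hΛ a).star.mul_right _)).sub (((hΛ _).mul_left _).sub (WT.const _))
  have hnorm : ∀ k k', ⟪ξ, Q k k' ξ⟫_ℂ
      = ((‖π (c.hom k a) ξ - π (c.hom k' a) ξ‖ ^ 2 : ℝ) : ℂ) := fun k k' => by
    simp only [Q]
    rw [ContinuousLinearMap.mul_apply, ContinuousLinearMap.star_eq_adjoint,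
      ContinuousLinearMap.adjoint_inner_right, inner_self_eq_norm_sq_to_K,
      ContinuousLinearMap.sub_apply]
    simp
  have hlim0 : Tendsto (fun k => ⟪ξ, Q₁ k ξ⟫_ℂ) (U : Filter ℕ) (𝓝 0) := by
    have := hQ₂ ξ ξ
    rw [← neg_sub (Λ (star a * a)) (star (Λ a) * Λ a), sub_neg_eq_add,
      ContinuousLinearMap.add_apply, hvar a, add_zero, inner_zero_right] at this
    exact this
  filter_upwards [(tendsto_nhds.1 hlim0) (Metric.ball 0 (ε ^ 2)) Metric.isOpen_ball
    (Metric.mem_ball_self (by positivity))] with k hk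
  filter_upwards [hne k, (tendsto_nhds.1 (hQ₁ k ξ ξ)) (Metric.ball 0 (ε ^ 2)) Metric.isOpen_ball hk]
    with k' hk' hball
  refine ⟨hk', ?_⟩
  rw [Set.mem_preimage, Metric.mem_ball, dist_zero_right, hnorm, Complex.norm_real,
    Real.norm_eq_abs, abs_of_nonneg (sq_nonneg _)] at hball
  exact (pow_lt_pow_iff_left₀ (norm_nonneg _) hε.le two_ne_zero).1 hball

/-- Commutators generate nothing that survives on the vector. -/
lemma no_state (hfull : Full {x : B | ∃ a b, a * b - b * a = x})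
    (hclose : ∀ (a : B) (ε : ℝ), 0 < ε → ∀ᶠ k in (U : Filter ℕ), ∀ᶠ k' in (U : Filter ℕ),
      k' ≠ k ∧ ‖π (c.hom k a) ξ - π (c.hom k' a) ξ‖ < ε) (hξ : ‖ξ‖ = 1) : False := by
  have hbd : ∀ k x (v : H), ‖π (c.hom k x) v‖ ≤ ‖x‖ * ‖v‖ := fun k x v =>
    ((π (c.hom k x)).le_opNorm v).trans (mul_le_mul_of_nonneg_right
      ((NonUnitalStarAlgHom.norm_apply_le π _).trans (NonUnitalStarAlgHom.norm_apply_le (c.hom k) x)) (norm_nonneg v))
  have hπm : ∀ k x y (v : H), π (c.hom k (x * y)) v = π (c.hom k x) (π (c.hom k y) v) :=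
    fun k x y v => by rw [map_mul, map_mul, ContinuousLinearMap.mul_apply]
  have hswap : ∀ k k' x y (v : H), k' ≠ k →
      π (c.hom k x) (π (c.hom k' y) v) = π (c.hom k' y) (π (c.hom k x) v) :=
    fun k k' x y v h => by
      rw [← ContinuousLinearMap.mul_apply, ← ContinuousLinearMap.mul_apply,
        ((c.comm k k' (Ne.symm h) x y).map π).eq]
  have hzero : ∀ a b (ε : ℝ), 0 < ε →
      ∀ᶠ k in (U : Filter ℕ), ‖π (c.hom k (a * b - b * a)) ξ‖ < ε := by
    intro a b ε hε
    set η := ε / (‖a‖ + ‖b‖ + 2)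
    have hη : 0 < η := by positivity
    filter_upwards [hclose a η hη, hclose b η hη, hclose (b * a) η hη] with k ha hb hba
    obtain ⟨k', ⟨hk, ha⟩, ⟨-, hb⟩, -, hba⟩ := (ha.and (hb.and hba)).exists
    have e : π (c.hom k (a * b - b * a)) ξ
        = π (c.hom k a) (π (c.hom k b) ξ - π (c.hom k' b) ξ)
          + π (c.hom k' b) (π (c.hom k a) ξ - π (c.hom k' a) ξ)
          + (π (c.hom k' (b * a)) ξ - π (c.hom k (b * a)) ξ) := by
      rw [map_sub, map_sub, ContinuousLinearMap.sub_apply, map_sub, map_sub, hπm, hπm k' b a,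
        hswap k k' a b ξ hk]
      abel
    rw [e]
    refine (norm_add₃_le).trans_lt ?_
    rw [norm_sub_rev (π (c.hom k' (b * a)) ξ)]
    calc ‖π (c.hom k a) (π (c.hom k b) ξ - π (c.hom k' b) ξ)‖
          + ‖π (c.hom k' b) (π (c.hom k a) ξ - π (c.hom k' a) ξ)‖
          + ‖π (c.hom k (b * a)) ξ - π (c.hom k' (b * a)) ξ‖
        < (‖a‖ * η + ‖b‖ * η) + 2 * η := by
          refine add_lt_add_of_le_of_lt (add_le_add ?_ ?_) (by linarith)
          · exact (hbd _ _ _).trans (mul_le_mul_of_nonneg_left hb.le (norm_nonneg _))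
          · exact (hbd _ _ _).trans (mul_le_mul_of_nonneg_left ha.le (norm_nonneg _))
      _ = ε := by
          simp only [η]
          field_simp
  let J : Set B := {x | ∀ p q (ε : ℝ), 0 < ε → ∀ᶠ k in (U : Filter ℕ), ‖π (c.hom k (p * x * q)) ξ‖ < ε}
  let I : TwoSidedIdeal B := TwoSidedIdeal.mk' J
    (fun p q ε hε => Eventually.of_forall fun k => by simpa using hε)
    (fun {x y} hx hy p q ε hε => by
      filter_upwards [hx p q (ε / 2) (by positivity), hy p q (ε / 2) (by positivity)] with k h1 h2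
      rw [mul_add, add_mul, map_add, map_add, ContinuousLinearMap.add_apply]
      exact (norm_add_le _ _).trans_lt (by linarith))
    (fun {x} hx p q ε hε => (hx p q ε hε).mono fun k hk => by
      simpa using hk)
    (fun {y x} hx p q ε hε => (hx (p * y) q ε hε).mono fun k hk => by
      simpa [mul_assoc] using hk)
    (fun {x y} hx p q ε hε => (hx p (y * q) ε hε).mono fun k hk => by
      simpa [mul_assoc] using hk)
  have hgen : {x : B | ∃ a b, a * b - b * a = x} ⊆ (I : Set B) := by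
    rintro _ ⟨a, b, rfl⟩
    simp only [I, TwoSidedIdeal.coe_mk']
    intro p q ε hε
    set x := a * b - b * a
    set η := ε / (‖p * x‖ + ‖q‖ * ‖p‖ + 1)
    have hη : 0 < η := by positivity
    filter_upwards [hclose q η hη, hzero a b η hη] with k hq hx
    obtain ⟨k', hk, hq⟩ := hq.exists
    have e : π (c.hom k (p * x * q)) ξ = π (c.hom k (p * x)) (π (c.hom k q) ξ - π (c.hom k' q) ξ)
        + π (c.hom k' q) (π (c.hom k p) (π (c.hom k x) ξ)) := by
      rw [map_sub, ← hπm k p x, ← hswap k k' (p * x) q ξ hk, hπm k (p * x) q, sub_add_cancel]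
    rw [sub_zero, e]
    refine (norm_add_le _ _).trans_lt ?_
    calc _ ≤ ‖p * x‖ * η + ‖q‖ * (‖p‖ * η) := add_le_add
          ((hbd _ _ _).trans (mul_le_mul_of_nonneg_left hq.le (norm_nonneg _)))
          ((hbd _ _ _).trans (mul_le_mul_of_nonneg_left
            ((hbd _ _ _).trans (mul_le_mul_of_nonneg_left hx.le (norm_nonneg _))) (norm_nonneg _)))
      _ < (‖p * x‖ + ‖q‖ * ‖p‖ + 1) * η := by nlinarith
      _ = ε := by simp only [η]; field_simp
  have h1 : (1 : B) ∈ (I : Set B) := TwoSidedIdeal.span_le.2 hgen hfull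
  simp only [I, TwoSidedIdeal.coe_mk'] at h1
  obtain ⟨k, hk⟩ := (h1 1 1 (1 / 2) (by norm_num)).exists
  rw [sub_zero, one_mul, one_mul, map_one, map_one, ContinuousLinearMap.one_apply, hξ] at hk
  linarith

end Main

section Assembly

variable {G : Type v} [Group G] [Fintype G] {D : Type u} [CStarAlgebra D] [PartialOrder D]
  [StarOrderedRing D] (β : G → D ≃⋆ₐ[ℂ] D)

open scoped ComplexOrder in
/-- A character of the fixed point algebra gives a state. -/
lemma exists_state (hβ : ∀ g h x, β (g * h) x = β g (β h x))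
    (χ : fixedAlg β →⋆ₐ[ℂ] ℂ) :
    ∃ φ : D →ₚ[ℂ] ℂ, φ 1 = 1 ∧
      ∀ x, φ (star (avg β x) * avg β x) = starRingEnd ℂ (φ x) * φ x := by
  let χ' : D →ₗ[ℂ] ℂ :=
    { toFun := fun x => χ ⟨avg β x, avg_mem β hβ x⟩
      map_add' := fun x y => by
        rw [← map_add χ]; congr 1; exact Subtype.ext (map_add _ x y)
      map_smul' := fun z x => by
        rw [RingHom.id_apply, ← map_smul χ]; congr 1; exact Subtype.ext (map_smul _ z x) }
  have hχ' : ∀ {x} (hx : x ∈ fixedAlg β), χ' x = χ ⟨x, hx⟩ := fun {x} hx =>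
    congrArg χ (Subtype.ext (avg_of_mem β hx))
  have hpos : ∀ x, 0 ≤ x → 0 ≤ χ' x := by
    intro x hx
    have hy : 0 ≤ avg β x := by
      rw [avg_apply, show (Fintype.card G : ℂ)⁻¹ = (((Fintype.card G : ℝ)⁻¹ : ℝ) : ℂ) by simp,
        Complex.coe_smul]
      exact smul_nonneg (by positivity) (Finset.sum_nonneg fun g _ => by
        obtain ⟨y, rfl⟩ := CStarAlgebra.nonneg_iff_eq_star_mul_self.1 hx
        rw [map_mul, map_star]; exact star_mul_self_nonneg _)
    have hr : CFC.sqrt (avg β x) ∈ fixedAlg β := fun g => by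
      refine (CFC.sqrt_unique ?_ ?_).symm
      · rw [← map_mul, CFC.sqrt_mul_sqrt_self _ hy]
        exact avg_mem β hβ x g
      · obtain ⟨y, hy'⟩ := CStarAlgebra.nonneg_iff_eq_star_mul_self.1 (CFC.sqrt_nonneg (avg β x))
        rw [hy', map_mul, map_star]; exact star_mul_self_nonneg _
    have e : (⟨avg β x, avg_mem β hβ x⟩ : fixedAlg β) = star ⟨_, hr⟩ * ⟨_, hr⟩ :=
      Subtype.ext (by
        show avg β x = star (CFC.sqrt (avg β x)) * CFC.sqrt (avg β x)
        rw [(CFC.sqrt_nonneg (avg β x)).isSelfAdjoint.star_eq, CFC.sqrt_mul_sqrt_self _ hy])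
    show 0 ≤ χ ⟨avg β x, avg_mem β hβ x⟩
    rw [e, map_mul, map_star, ← starRingEnd_apply, ← Complex.normSq_eq_conj_mul_self]
    exact Complex.zero_le_real.2 (Complex.normSq_nonneg _)
  let φ : D →ₚ[ℂ] ℂ := PositiveLinearMap.mk₀ χ' hpos
  have hφ : ∀ x, φ x = χ' x := fun x => rfl
  have hφ1 : φ 1 = 1 := by
    rw [hφ, hχ' (fixedAlg β).one_mem]
    exact map_one χ
  have hmult : ∀ x, φ (star (avg β x) * avg β x) = starRingEnd ℂ (φ x) * φ x := fun x => by
    rw [hφ, hφ, hχ' (mul_mem (star_mem (avg_mem β hβ x)) (avg_mem β hβ x) :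
      star (avg β x) * avg β x ∈ fixedAlg β)]
    exact (map_mul χ (star (⟨_, avg_mem β hβ x⟩ : fixedAlg β)) ⟨_, avg_mem β hβ x⟩).trans (by
      rw [map_star, ← starRingEnd_apply]; rfl)
  exact ⟨φ, hφ1, hmult⟩

end Assembly

open scoped ComplexOrder in
theorem core_ok : CoreStatement.{u, v} := by
  intro G _ _ D B _ _ β hβ γ c hc hfull
  refine ⟨fun χ => ?_⟩
  letI := CStarAlgebra.spectralOrder D
  have := CStarAlgebra.spectralOrderedRing D
  obtain ⟨φ, hφ1, hmult⟩ := exists_state β hβ χ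
  let π : D →⋆ₐ[ℂ] (φ.GNS →L[ℂ] φ.GNS) := φ.gnsStarAlgHom
  let ξ : φ.GNS := ((φ.toPreGNS 1 : φ.PreGNS) : φ.GNS)
  have hvec : ∀ x, ⟪ξ, π x ξ⟫_ℂ = φ x := fun x => by
    simp [π, ξ, PositiveLinearMap.preGNS_inner_def]
  set U : Ultrafilter ℕ := Filter.hyperfilter ℕ
  have hne : ∀ l : ℕ, ∀ᶠ k in (U : Filter ℕ), k ≠ l := fun l =>
    Filter.hyperfilter_le_cofinite (Set.finite_singleton l).compl_mem_cofinite
  have hexl : ∀ b : B, ∃ L, WT (U : Filter ℕ) (fun k => π (c.hom k b)) L := fun b =>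
    exists_wt U fun k => (NonUnitalStarAlgHom.norm_apply_le π _).trans (NonUnitalStarAlgHom.norm_apply_le (c.hom k) b)
  choose Λ hΛ using hexl
  have hΛπ : ∀ b l x, Commute (π (c.hom l x)) (Λ b) := fun b l x =>
    (hΛ b).commute ((hne l).mono fun k hk => (c.comm l k (Ne.symm hk) x b).map π)
  have hΛΛ : ∀ a b, Commute (Λ a) (Λ b) := fun a b =>
    (hΛ b).commute (Eventually.of_forall fun k => (hΛπ a k b).symm)
  have hΛstar : ∀ b, Λ (star b) = star (Λ b) := fun b =>
    (hΛ (star b)).unique (((hΛ b).star).congr (Eventually.of_forall fun k => by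
      simp only [map_star]))
  have hm : ∀ x, ⟪ξ, π (star (avg β x) * avg β x) ξ⟫_ℂ
      = starRingEnd ℂ ⟪ξ, π x ξ⟫_ℂ * ⟪ξ, π x ξ⟫_ℂ := fun x => by rw [hvec, hvec, hmult]
  have hξ : ‖ξ‖ = 1 := by
    have h := hvec 1
    rw [map_one, ContinuousLinearMap.one_apply, hφ1, inner_self_eq_norm_sq_to_K] at h
    have h' : ‖ξ‖ ^ 2 = 1 := by
      rw [← RCLike.ofReal_pow] at h
      exact RCLike.ofReal_injective (h.trans RCLike.ofReal_one.symm)
    exact (pow_eq_one_iff_of_nonneg (norm_nonneg _) two_ne_zero).1 h'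
  exact no_state π c U ξ hfull (close_copies π c U ξ hne hΛ fun a =>
    variance_eq_zero β π c U γ ξ hβ hΛ hΛπ hΛΛ hΛstar hc hm a) hξ

end Vale.Agent.P095.Finite
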