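import Mathlib
import Vale.Agent.P101.Bridge.Central
import Vale.Agent.P095.Finite.Inv.Main
import Vale.Agent.P095.Finite.Inv.Diag

/-!
Locally finite groups: a unital invariant homomorphism from the dimension drop algebra into the
central sequence algebra.
-/

noncomputable section

open Filter Topology
open scoped BoundedContinuousFunction

namespace Vale.Agent.P095.Finite

open Vale.Agent.P101

universe u v

variable {G : Type v} {A : Type u} [CStarAlgebra A] {α : G → A ≃⋆ₐ[ℂ] A} {ω : Ultrafilter ℕ}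

/-- Invariant relations on representatives give relations in the fixed point algebra. -/
theorem comparison_fixed_of_inv (h : InvComparison ω α Set.univ)
    [IsClosed (fixedAlg (cqAct ω α) : Set (CQ ω A))] : Comparison (fixedAlg (cqAct ω α)) := by
  obtain ⟨c, e, f, v, r, s, hc, he, hf, hv, hr, hs, h1, h2, h3, h4, h5, h6, h7, hi⟩ := h
  simp only [List.mem_cons, List.not_mem_nil, or_false, forall_eq_or_imp, forall_eq, Set.mem_univ,
    true_imp_iff] at hi
  obtain ⟨ic, ie, if', iv, ir, is'⟩ := hi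
  have fix : ∀ (x : ℕ →ᵇ A) (hx : IsCentral ω x),
      (∀ g, Tendsto (fun n => ‖α g (x n) - x n‖) (ω : Filter ℕ) (𝓝 0)) →
      proj ω ⟨x, hx⟩ ∈ fixedAlg (cqAct ω α) := fun x hx hxi g => by
    rw [cqAct, cqAut_proj]
    exact (proj_eq_iff ω _ _).2 (hxi g)
  refine ⟨⟨_, fix c hc ic⟩, ⟨_, fix e he ie⟩, ⟨_, fix f hf if'⟩, ⟨_, fix v hv iv⟩, ⟨_, fix r hr ir⟩,
    ⟨_, fix s hs is'⟩, ?_⟩
  have key : ∀ x y : fixedAlg (cqAct ω α), (x : CQ ω A) = y → x = y := fun x y h => Subtype.ext h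
  refine ⟨key _ _ ?_, key _ _ ?_, key _ _ ?_, key _ _ ?_, key _ _ ?_, key _ _ ?_, key _ _ ?_⟩
  · show star (proj ω ⟨r, hr⟩) * proj ω ⟨r, hr⟩ = proj ω ⟨e, he⟩
    rw [← map_star, ← map_mul, proj_eq_iff]; exact h1
  · show star (proj ω ⟨s, hs⟩) * proj ω ⟨s, hs⟩ = proj ω ⟨f, hf⟩
    rw [← map_star, ← map_mul, proj_eq_iff]; exact h2
  · show proj ω ⟨c, hc⟩ * proj ω ⟨c, hc⟩ = 0
    rw [← map_mul, ← map_zero (proj ω (A := A)), proj_eq_iff]; simpa using h3
  · show proj ω ⟨c, hc⟩ * star (proj ω ⟨c, hc⟩) = proj ω ⟨e, he⟩ * proj ω ⟨e, he⟩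
    rw [← map_star, ← map_mul, ← map_mul, proj_eq_iff]; exact h4
  · show star (proj ω ⟨c, hc⟩) * proj ω ⟨c, hc⟩ = proj ω ⟨f, hf⟩ * proj ω ⟨f, hf⟩
    rw [← map_star, ← map_mul, ← map_mul, proj_eq_iff]; exact h5
  · show star (proj ω ⟨v, hv⟩) * proj ω ⟨v, hv⟩ = 1 - proj ω ⟨e, he⟩ - proj ω ⟨f, hf⟩
    rw [← map_star, ← map_mul, ← map_one (proj ω (A := A)), ← map_sub, ← map_sub, proj_eq_iff]
    exact h6
  · show proj ω ⟨e, he⟩ * proj ω ⟨v, hv⟩ = proj ω ⟨v, hv⟩
    rw [← map_mul, proj_eq_iff]; exact h7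

/-- A homomorphism into the fixed point algebra, on representatives. -/
theorem centralHom_of_fixed (ψ : DimDrop →⋆ₐ[ℂ] fixedAlg (cqAct ω α)) :
    ∃ H : CentralHom ω A, ∀ g, InDimDrop g → ∀ k,
      Tendsto (fun n => ‖α k (H.val g n) - H.val g n‖) (ω : Filter ℕ) (𝓝 0) := by
  classical
  choose r hr using proj_surjective ω (A := A)
  let p : DimDrop → CQ ω A := fun g => (ψ g : CQ ω A)
  let v : MatFun → (ℕ →ᵇ A) := fun g => if h : InDimDrop g then (r (p ⟨g, h⟩) : ℕ →ᵇ A) else 0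
  have hv : ∀ g : DimDrop, v g = r (p g) := fun g => dif_pos g.2
  have key : ∀ (x : ↥(centralAlg ω A)) (g : DimDrop), proj ω x = p g →
      IsNull ω (v g - (x : ℕ →ᵇ A)) := fun x g h => by
    rw [hv]
    exact (proj_eq_iff ω _ _).1 ((hr _).trans h.symm)
  refine ⟨⟨v, fun g hg => ?_, ?_, fun g g' hg hg' => ?_, fun g g' hg hg' => ?_,
    fun z g hg => ?_, fun g hg => ?_⟩, fun g hg k => ?_⟩
  · rw [hv ⟨g, hg⟩]
    exact (r (p ⟨g, hg⟩)).2
  · exact key 1 1 (by simp [p])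
  · have := key (r (p ⟨g, hg⟩) + r (p ⟨g', hg'⟩)) (⟨g, hg⟩ + ⟨g', hg'⟩) (by simp [hr, p])
    simpa [← hv] using this
  · have := key (r (p ⟨g, hg⟩) * r (p ⟨g', hg'⟩)) (⟨g, hg⟩ * ⟨g', hg'⟩) (by simp [hr, p])
    simpa [← hv] using this
  · have := key (z • r (p ⟨g, hg⟩)) (z • ⟨g, hg⟩) (by simp [hr, p])
    simpa [← hv] using this
  · have := key (star (r (p ⟨g, hg⟩))) (star ⟨g, hg⟩) (by simp [map_star, hr, p])
    simpa [← hv] using this
  · show Tendsto (fun n => ‖α k (v g n) - v g n‖) _ _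
    rw [hv ⟨g, hg⟩]
    have h : proj ω (centMap ω (α k) (r (p ⟨g, hg⟩))) = proj ω (r (p ⟨g, hg⟩)) := by
      rw [← cqAut_proj, hr]
      exact (ψ ⟨g, hg⟩).2 k
    exact (proj_eq_iff ω _ _).1 h

/-- For locally finite groups the fixed point part of the central sequence algebra gets the
dimension drop algebra exactly when the central sequence algebra has no characters. -/
theorem noChar_iff_invariantHom [Group G] [Countable G]
    (hG : ∀ S : Finset G, (Subgroup.closure (S : Set G) : Set G).Finite)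
    [TopologicalSpace.SeparableSpace A] (hα : ∀ g h x, α (g * h) x = α g (α h x))
    (hω : (ω : Filter ℕ) ≤ cofinite) :
    IsEmpty (CentralChar ω A) ↔ ∃ H : CentralHom ω A, ∀ g, InDimDrop g → ∀ k,
      Tendsto (fun n => ‖α k (H.val g n) - H.val g n‖) (ω : Filter ℕ) (𝓝 0) := by
  constructor
  · intro he
    have hcl : IsClosed (fixedAlg (cqAct ω α) : Set (CQ ω A)) :=
      isClosed_fixedAlg _ fun g => continuous_cqAut (α g)
    obtain ⟨ψ⟩ := exists_dimDropHom (comparison_fixed_of_inv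
      (locallyFinite_of finite_ok diag_ok G hG A α hα ω hω he))
    exact centralHom_of_fixed ψ
  · rintro ⟨H, -⟩
    obtain ⟨ψ⟩ := centralHom_iff.1 ⟨H⟩
    exact ⟨fun χ => dimDrop_no_character.false ((hom_of_char χ).some.comp ψ)⟩

end Vale.Agent.P095.Finite
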